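import Vale.Agent.P227.M.ID.Y545.Basic

/-! P227 block ID: identities (A) and (B) for C^2 compactly supported matrix fields. -/

open MeasureTheory

namespace P227MFlat

variable {E : Type*} [NormedAddCommGroup E] [NormedSpace ℝ E] [MeasurableSpace E] [BorelSpace E]
  [FiniteDimensional ℝ E] {μ : Measure E} [μ.IsAddHaarMeasure]

/-- weighted integral -/
noncomputable def II (μ : Measure E) (φ : E → ℝ) (f : E → ℝ) : ℝ :=
  ∫ y, f y * Real.exp (-φ y) ∂μ

/-- continuous with compact support -/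
def KC (f : E → ℝ) : Prop := Continuous f ∧ HasCompactSupport f

theorem KC.mul {f g : E → ℝ} (h : KC f) (hg : Continuous g) : KC (fun y => f y * g y) :=
  ⟨h.1.mul hg, h.2.mul_right⟩

theorem KC.mul' {f g : E → ℝ} (h : KC g) (hf : Continuous f) : KC (fun y => f y * g y) :=
  ⟨hf.mul h.1, h.2.mul_left⟩

theorem CC.kc {k : ℕ} {f : E → ℝ} (h : CC k f) : KC f := ⟨h.1.continuous, h.2⟩

theorem KC.int {φ f : E → ℝ} (hφ : Continuous φ) (h : KC f) :
    Integrable (fun y => f y * Real.exp (-φ y)) μ :=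
  (h.1.mul (Real.continuous_exp.comp hφ.neg)).integrable_of_hasCompactSupport h.2.mul_right

theorem II_add {φ f g : E → ℝ} (hφ : Continuous φ) (hf : KC f) (hg : KC g) :
    II μ φ (fun y => f y + g y) = II μ φ f + II μ φ g := by
  unfold II
  rw [← integral_add (hf.int hφ) (hg.int hφ)]
  congr 1; ext y; ring

theorem II_sub {φ f g : E → ℝ} (hφ : Continuous φ) (hf : KC f) (hg : KC g) :
    II μ φ (fun y => f y - g y) = II μ φ f - II μ φ g := by
  unfold II
  rw [← integral_sub (hf.int hφ) (hg.int hφ)]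
  congr 1; ext y; ring

theorem II_congr {φ f g : E → ℝ} (h : ∀ y, f y = g y) : II μ φ f = II μ φ g := by
  have : f = g := funext h
  rw [this]

theorem KC.sum {ι : Type*} (s : Finset ι) {f : ι → E → ℝ} (h : ∀ i ∈ s, KC (f i)) :
    KC (fun y => ∑ i ∈ s, f i y) := by
  classical
  induction s using Finset.induction_on with
  | empty =>
    simp only [Finset.sum_empty]
    exact ⟨continuous_const, HasCompactSupport.zero⟩
  | insert i s hi ih =>
    have h1 : (fun y => ∑ j ∈ insert i s, f j y) = fun y => f i y + ∑ j ∈ s, f j y := by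
      ext y; rw [Finset.sum_insert hi]
    rw [h1]
    have h2 := h i (Finset.mem_insert_self i s)
    have h3 := ih (fun j hj => h j (Finset.mem_insert_of_mem hj))
    exact ⟨h2.1.add h3.1, h2.2.add h3.2⟩

theorem II_sum {ι : Type*} (s : Finset ι) {φ : E → ℝ} {f : ι → E → ℝ} (hφ : Continuous φ)
    (h : ∀ i ∈ s, KC (f i)) :
    II μ φ (fun y => ∑ i ∈ s, f i y) = ∑ i ∈ s, II μ φ (f i) := by
  unfold II
  rw [← integral_finset_sum s (fun i hi => (h i hi).int hφ)]
  congr 1; ext y; rw [Finset.sum_mul]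

theorem ibp' {φ h W : E → ℝ} (hφ : ContDiff ℝ 1 φ) (hh : CC 1 h) {K : NNReal}
    (hW : LipschitzWith K W) (v : E) :
    II μ φ (fun y => W y * ds φ v h y) = II μ φ (fun y => wd v W y * h y) :=
  ibp hφ hh hW v

theorem ds_mul {φ f g : E → ℝ} (hf : Differentiable ℝ f) (hg : Differentiable ℝ g) (v y : E) :
    ds φ v (fun z => f z * g z) y = f y * ds φ v g y - pd v f y * g y := by
  unfold ds
  rw [pd_mul hf hg]; ring

theorem pd_ds {φ f : E → ℝ} (hφ : ContDiff ℝ 2 φ) (hf : ContDiff ℝ 2 f) (v w y : E) :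
    pd v (ds φ w f) y = pd v (pd w φ) y * f y + ds φ w (pd v f) y := by
  have h1 : Differentiable ℝ (pd w φ) := (pd_contDiff (k := 1) hφ (by norm_num) w).differentiable
    (by norm_num)
  have h2 : Differentiable ℝ (pd w f) := (pd_contDiff (k := 1) hf (by norm_num) w).differentiable
    (by norm_num)
  have h3 : Differentiable ℝ f := hf.differentiable (by norm_num)
  have e1 : ds φ w f = fun y => pd w φ y * f y - pd w f y := rfl
  rw [e1, pd_sub (h1.fun_mul h3) h2, pd_mul h1 h3, pd_comm hf v w]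
  unfold ds
  ring

/-- (A), one index -/
theorem A_idx {φ σ f u : E → ℝ} (hφ : ContDiff ℝ 2 φ) {K : NNReal} (hσ : LipschitzWith K σ)
    (hf : CC 2 f) (hu : CC 2 u) (v w : E) :
    II μ φ (fun y => σ y * (u y * pd v (ds φ w f) y)) =
      II μ φ (fun y => pd v (pd w φ) y * σ y * (f y * u y)) +
      II μ φ (fun y => wd w σ y * (pd v f y * u y)) +
      II μ φ (fun y => σ y * (pd v f y * pd w u y)) := by
  have hφ1 : ContDiff ℝ 1 φ := hφ.of_le (by norm_num)
  have hφc : Continuous φ := hφ.continuous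
  have hσc : Continuous σ := hσ.continuous
  have hpf : CC 1 (pd v f) := hf.pd (by norm_num) v
  have hh : CC 1 (fun y => pd v f y * u y) := hpf.mul (hu.mono (by norm_num)).1
  have hτ : Continuous (pd v (pd w φ)) :=
    (pd_contDiff (k := 0) (pd_contDiff (k := 1) hφ (by norm_num) w) (by norm_num) v).continuous
  have hds : Continuous (ds φ w (pd v f)) :=
    (CC.ds (k := 0) hφ1 hpf (by norm_num) w).cont
  have hpu : CC 1 (pd w u) := hu.pd (by norm_num) w
  rw [← ibp' hφ1 hh hσ w]
  rw [← II_add hφc, ← II_add hφc]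
  · apply II_congr
    intro y
    rw [pd_ds hφ hf.1, ds_mul (hpf.1.differentiable (by norm_num))
      (hu.1.differentiable (by norm_num))]
    unfold ds
    ring
  · have h1 : KC (fun y => pd v (pd w φ) y * σ y * (f y * u y)) :=
      ((hf.kc.mul hu.cont)).mul' (hτ.mul hσc)
    have h2 : KC (fun y => σ y * ds φ w (fun y => pd v f y * u y) y) :=
      (CC.ds (k := 0) hφ1 hh (by norm_num) w).kc.mul' hσc
    exact ⟨h1.1.add h2.1, h1.2.add h2.2⟩
  · exact (hpf.kc.mul hpu.cont).mul' hσc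
  · exact ((hf.kc.mul hu.cont)).mul' (hτ.mul hσc)
  · exact (CC.ds (k := 0) hφ1 hh (by norm_num) w).kc.mul' hσc

/-- (B), one index -/
theorem B_idx {φ σ f k : E → ℝ} (hφ : ContDiff ℝ 2 φ) {K : NNReal} (hσ : LipschitzWith K σ)
    (hf : CC 1 f) (hk : CC 1 k) (w : E) :
    II μ φ (fun y => σ y * (k y * ds φ w f y)) =
      II μ φ (fun y => wd w σ y * (k y * f y)) +
      II μ φ (fun y => σ y * (pd w k y * f y)) := by
  have hφ1 : ContDiff ℝ 1 φ := hφ.of_le (by norm_num)
  have hφc : Continuous φ := hφ.continuous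
  have hσc : Continuous σ := hσ.continuous
  have hh : CC 1 (fun y => k y * f y) := hk.mul hf.1
  have hpk : CC 0 (pd w k) := hk.pd (by norm_num) w
  rw [← ibp' hφ1 hh hσ w]
  rw [← II_add hφc]
  · apply II_congr
    intro y
    rw [ds_mul (hk.1.differentiable (by norm_num)) (hf.1.differentiable (by norm_num))]
    ring
  · exact (CC.ds (k := 0) hφ1 hh (by norm_num) w).kc.mul' hσc
  · exact (hpk.kc.mul hf.cont).mul' hσc

section main

variable {ι : Type*} [Fintype ι] (e : ι → E) (φ : E → ℝ) (σ : ι → ι → E → ℝ) (G : ι → E → ℝ)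
  (U : ι → ι → E → ℝ)

/-- `s_b = sum_d d*_d U_bd` -/
noncomputable def sv (b : ι) (y : E) : ℝ := ∑ d, ds φ (e d) (U b d) y

/-- `M_b = - L Gam_b` -/
noncomputable def mv (b : ι) (y : E) : ℝ :=
  ∑ a, (G a y * U a b y - ∑ c, σ a c y * pd (e c) (U a b) y)

/-- `G` is the divergence of `σ` -/
def HG (μ : Measure E) : Prop := ∀ a, ∀ g : E → ℝ, CC 1 g →
  II μ φ (fun y => G a y * g y) = ∑ c, II μ φ (fun y => σ a c y * pd (e c) g y)

variable {e φ σ G U}

theorem SM_eq (hφ : ContDiff ℝ 2 φ) (hσ : ∀ a c, Continuous (σ a c)) (hGc : ∀ a, Continuous (G a))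
    (hG : HG e φ σ G μ) (hU : ∀ b d, CC 2 (U b d)) :
    ∑ b, II μ φ (fun y => sv e φ U b y * mv e σ G U b y) =
      ∑ b, ∑ d, ∑ a, ∑ c, II μ φ (fun y => σ a c y * (U a b y *
        pd (e c) (ds φ (e d) (U b d)) y)) := by
  have hφc : Continuous φ := hφ.continuous
  have hS : ∀ b d, CC 1 (ds φ (e d) (U b d)) := fun b d => (hU b d).ds hφ (by norm_num) _
  apply Finset.sum_congr rfl
  intro b _
  have h0 : ∀ y, sv e φ U b y * mv e σ G U b y = ∑ d, ∑ a,
      (G a y * (U a b y * ds φ (e d) (U b d) y) -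
        ∑ c, σ a c y * (pd (e c) (U a b) y * ds φ (e d) (U b d) y)) := by
    intro y
    unfold sv mv
    rw [Finset.sum_mul]
    apply Finset.sum_congr rfl
    intro d _
    rw [Finset.mul_sum]
    apply Finset.sum_congr rfl
    intro a _
    rw [mul_sub, Finset.mul_sum]
    congr 1
    · ring
    · apply Finset.sum_congr rfl
      intro c _
      ring
  rw [II_congr h0]
  have hk1 : ∀ a d, KC (fun y => G a y * (U a b y * ds φ (e d) (U b d) y)) := fun a d =>
    ((hU a b).kc.mul (hS b d).cont).mul' (hGc a)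
  have hk2 : ∀ a d c, KC (fun y => σ a c y * (pd (e c) (U a b) y * ds φ (e d) (U b d) y)) :=
    fun a d c => (((hU a b).pd (k := 1) (by norm_num) (e c)).kc.mul (hS b d).cont).mul' (hσ a c)
  have hk3 : ∀ a d, KC (fun y => G a y * (U a b y * ds φ (e d) (U b d) y) -
        ∑ c, σ a c y * (pd (e c) (U a b) y * ds φ (e d) (U b d) y)) := by
    intro a d
    have h1 := KC.sum (Finset.univ) (fun c _ => hk2 a d c)
    exact ⟨(hk1 a d).1.sub h1.1, (hk1 a d).2.sub h1.2⟩
  rw [II_sum _ hφc (fun d _ => KC.sum _ (fun a _ => hk3 a d))]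
  apply Finset.sum_congr rfl
  intro d _
  rw [II_sum _ hφc (fun a _ => hk3 a d)]
  apply Finset.sum_congr rfl
  intro a _
  rw [II_sub hφc (hk1 a d) (KC.sum _ (fun c _ => hk2 a d c)), II_sum _ hφc (fun c _ => hk2 a d c)]
  have hg : CC 1 (fun y => U a b y * ds φ (e d) (U b d) y) :=
    ((hU a b).mono (by norm_num)).mul (hS b d).1
  rw [hG a _ hg, ← Finset.sum_sub_distrib]
  apply Finset.sum_congr rfl
  intro c _
  have hpS : CC 0 (pd (e c) (ds φ (e d) (U b d))) := (hS b d).pd (by norm_num) _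
  have h5 : KC (fun y => σ a c y * pd (e c) (fun y => U a b y * ds φ (e d) (U b d) y) y) :=
    (hg.pd (k := 0) (by norm_num) (e c)).kc.mul' (hσ a c)
  rw [← II_sub hφc h5 (hk2 a d c)]
  apply II_congr
  intro y
  rw [pd_mul ((hU a b).1.differentiable (by norm_num)) ((hS b d).1.differentiable (by norm_num))]
  ring

/-- identity (A) -/
theorem flatA (hφ : ContDiff ℝ 2 φ) {K : ι → ι → NNReal} (hσ : ∀ a c, LipschitzWith (K a c) (σ a c))
    (hGc : ∀ a, Continuous (G a)) (hG : HG e φ σ G μ) (hU : ∀ b d, CC 2 (U b d)) :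
    ∑ b, II μ φ (fun y => sv e φ U b y * mv e σ G U b y) =
      ∑ b, ∑ d, ∑ a, ∑ c, (II μ φ (fun y => pd (e c) (pd (e d) φ) y * σ a c y *
          (U b d y * U a b y)) +
        II μ φ (fun y => wd (e d) (σ a c) y * (pd (e c) (U b d) y * U a b y)) +
        II μ φ (fun y => σ a c y * (pd (e c) (U b d) y * pd (e d) (U a b) y))) := by
  rw [SM_eq hφ (fun a c => (hσ a c).continuous) hGc hG hU]
  apply Finset.sum_congr rfl
  intro b _
  apply Finset.sum_congr rfl
  intro d _
  apply Finset.sum_congr rfl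
  intro a _
  apply Finset.sum_congr rfl
  intro c _
  exact A_idx hφ (hσ a c) (hU b d) (hU a b) (e c) (e d)

/-- identity (B) -/
theorem flatB (hφ : ContDiff ℝ 2 φ) {K : ι → ι → NNReal} (hσ : ∀ a c, LipschitzWith (K a c) (σ a c))
    {K' : ι → NNReal} (hGl : ∀ a, LipschitzWith (K' a) (G a)) (hG : HG e φ σ G μ)
    (hU : ∀ b d, CC 2 (U b d)) :
    ∑ b, ∑ d, ∑ a, II μ φ (fun y => wd (e d) (G a) y * (U a b y * U b d y)) =
      ∑ b, II μ φ (fun y => sv e φ U b y * mv e σ G U b y) +
      ∑ b, ∑ d, ∑ a, ∑ c, (II μ φ (fun y => wd (e d) (σ a c) y * (pd (e c) (U a b) y * U b d y)) -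
        II μ φ (fun y => σ a c y * (pd (e d) (U a b) y * pd (e c) (U b d) y))) := by
  rw [SM_eq hφ (fun a c => (hσ a c).continuous) (fun a => (hGl a).continuous) hG hU]
  rw [← Finset.sum_add_distrib]
  have hφ1 : ContDiff ℝ 1 φ := hφ.of_le (by norm_num)
  have hφc : Continuous φ := hφ.continuous
  have hS : ∀ b d, CC 1 (ds φ (e d) (U b d)) := fun b d => (hU b d).ds hφ (by norm_num) _
  apply Finset.sum_congr rfl
  intro b _
  rw [← Finset.sum_add_distrib]
  apply Finset.sum_congr rfl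
  intro d _
  rw [← Finset.sum_add_distrib]
  apply Finset.sum_congr rfl
  intro a _
  have hUU : CC 1 (fun y => U a b y * U b d y) := ((hU a b).mul (hU b d).1).mono (by norm_num)
  rw [← ibp' hφ1 hUU (hGl a) (e d)]
  have hpU : CC 1 (pd (e d) (U a b)) := (hU a b).pd (by norm_num) _
  have hg : CC 1 (fun y => U a b y * ds φ (e d) (U b d) y - pd (e d) (U a b) y * U b d y) :=
    (((hU a b).mono (by norm_num)).mul (hS b d).1).sub (hpU.mul ((hU b d).mono (by norm_num)).1)
  have h1 : II μ φ (fun y => G a y * ds φ (e d) (fun y => U a b y * U b d y) y) =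
      II μ φ (fun y => G a y * (U a b y * ds φ (e d) (U b d) y - pd (e d) (U a b) y * U b d y)) := by
    apply II_congr
    intro y
    rw [ds_mul ((hU a b).1.differentiable (by norm_num)) ((hU b d).1.differentiable (by norm_num))]
  rw [h1, hG a _ hg, ← Finset.sum_add_distrib]
  apply Finset.sum_congr rfl
  intro c _
  have hσc : Continuous (σ a c) := (hσ a c).continuous
  have hpc : CC 1 (pd (e c) (U a b)) := (hU a b).pd (by norm_num) _
  have hB := B_idx (μ := μ) hφ (hσ a c) ((hU b d).mono (k := 1) (by norm_num)) hpc (e d)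
  have hpS : CC 0 (pd (e c) (ds φ (e d) (U b d))) := (hS b d).pd (by norm_num) _
  have hpb : CC 1 (pd (e c) (U b d)) := (hU b d).pd (by norm_num) _
  have hpp : CC 0 (pd (e d) (pd (e c) (U a b))) := hpc.pd (by norm_num) _
  have hpp' : CC 0 (pd (e c) (pd (e d) (U a b))) := hpU.pd (by norm_num) _
  -- expand
  have h2 : ∀ y, σ a c y * pd (e c) (fun y => U a b y * ds φ (e d) (U b d) y -
      pd (e d) (U a b) y * U b d y) y =
      (σ a c y * (pd (e c) (U a b) y * ds φ (e d) (U b d) y) +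
        σ a c y * (U a b y * pd (e c) (ds φ (e d) (U b d)) y)) -
      (σ a c y * (pd (e d) (pd (e c) (U a b)) y * U b d y) +
        σ a c y * (pd (e d) (U a b) y * pd (e c) (U b d) y)) := by
    intro y
    have d1 : Differentiable ℝ (U a b) := (hU a b).1.differentiable (by norm_num)
    have d2 : Differentiable ℝ (ds φ (e d) (U b d)) := (hS b d).1.differentiable (by norm_num)
    have d3 : Differentiable ℝ (pd (e d) (U a b)) := hpU.1.differentiable (by norm_num)
    have d4 : Differentiable ℝ (U b d) := (hU b d).1.differentiable (by norm_num)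
    rw [pd_sub (d1.fun_mul d2) (d3.fun_mul d4), pd_mul d1 d2, pd_mul d3 d4,
      pd_comm (hU a b).1 (e c) (e d)]
    ring
  rw [II_congr h2]
  have k1 : KC (fun y => σ a c y * (pd (e c) (U a b) y * ds φ (e d) (U b d) y)) :=
    (hpc.kc.mul (hS b d).cont).mul' hσc
  have k2 : KC (fun y => σ a c y * (U a b y * pd (e c) (ds φ (e d) (U b d)) y)) :=
    ((hU a b).kc.mul hpS.cont).mul' hσc
  have k3 : KC (fun y => σ a c y * (pd (e d) (pd (e c) (U a b)) y * U b d y)) :=
    (hpp.kc.mul (hU b d).cont).mul' hσc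
  have k4 : KC (fun y => σ a c y * (pd (e d) (U a b) y * pd (e c) (U b d) y)) :=
    (hpU.kc.mul hpb.cont).mul' hσc
  have k12 : KC (fun y => σ a c y * (pd (e c) (U a b) y * ds φ (e d) (U b d) y) +
      σ a c y * (U a b y * pd (e c) (ds φ (e d) (U b d)) y)) :=
    ⟨k1.1.add k2.1, k1.2.add k2.2⟩
  have k34 : KC (fun y => σ a c y * (pd (e d) (pd (e c) (U a b)) y * U b d y) +
      σ a c y * (pd (e d) (U a b) y * pd (e c) (U b d) y)) :=
    ⟨k3.1.add k4.1, k3.2.add k4.2⟩
  rw [II_sub hφc k12 k34, II_add hφc k1 k2, II_add hφc k3 k4, hB]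
  ring

end main

end P227MFlat
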