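import Mathlib

/-! P227 block ID: the flat form of the identity (Lipschitz coefficients, C^2 compactly supported
matrix fields). -/

open MeasureTheory

namespace P227MFlat

variable {E : Type*} [NormedAddCommGroup E] [NormedSpace ℝ E] [MeasurableSpace E] [BorelSpace E]
  [FiniteDimensional ℝ E] {μ : Measure E} [μ.IsAddHaarMeasure]

/-- directional derivative of a smooth function -/
noncomputable def pd (v : E) (f : E → ℝ) (y : E) : ℝ := fderiv ℝ f y v

/-- line derivative (for Lipschitz functions) -/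
noncomputable def wd (v : E) (f : E → ℝ) (y : E) : ℝ := lineDeriv ℝ f y v

/-- compactly supported and of class `C^k` -/
def CC (k : ℕ) (f : E → ℝ) : Prop := ContDiff ℝ k f ∧ HasCompactSupport f

theorem CC.mono {k l : ℕ} {f : E → ℝ} (h : CC l f) (hkl : k ≤ l) : CC k f :=
  ⟨h.1.of_le (by exact_mod_cast hkl), h.2⟩

theorem CC.cont {k : ℕ} {f : E → ℝ} (h : CC k f) : Continuous f := h.1.continuous

theorem pd_contDiff {k l : ℕ} {f : E → ℝ} (h : ContDiff ℝ l f) (hkl : k + 1 ≤ l) (v : E) :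
    ContDiff ℝ k (pd v f) := by
  have h1 : ContDiff ℝ k (fderiv ℝ f) :=
    h.fderiv_right (by exact_mod_cast hkl)
  exact h1.clm_apply contDiff_const

theorem CC.pd {k l : ℕ} {f : E → ℝ} (h : CC l f) (hkl : k + 1 ≤ l) (v : E) : CC k (pd v f) := by
  refine ⟨pd_contDiff h.1 hkl v, ?_⟩
  exact (h.2.fderiv_apply (𝕜 := ℝ) v)

theorem CC.mul {k : ℕ} {f g : E → ℝ} (h : CC k f) (hg : ContDiff ℝ k g) :
    CC k (fun y => f y * g y) :=
  ⟨h.1.mul hg, h.2.mul_right⟩

theorem CC.mul' {k : ℕ} {f g : E → ℝ} (h : CC k g) (hf : ContDiff ℝ k f) :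
    CC k (fun y => f y * g y) :=
  ⟨hf.mul h.1, h.2.mul_left⟩

theorem CC.sub {k : ℕ} {f g : E → ℝ} (h : CC k f) (hg : CC k g) :
    CC k (fun y => f y - g y) := by
  refine ⟨h.1.sub hg.1, ?_⟩
  exact h.2.sub hg.2

/-- `d*_v f = (d_v phi) f - d_v f` -/
noncomputable def ds (φ : E → ℝ) (v : E) (f : E → ℝ) (y : E) : ℝ := pd v φ y * f y - pd v f y

theorem CC.ds {k l : ℕ} {φ f : E → ℝ} (hφ : ContDiff ℝ l φ) (h : CC l f) (hkl : k + 1 ≤ l) (v : E) :
    CC k (ds φ v f) := by
  have h1 : CC k (fun y => P227MFlat.pd v φ y * f y) :=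
    (h.mono (by omega)).mul' (pd_contDiff hφ hkl v)
  exact h1.sub (h.pd hkl v)

theorem pd_mul {f g : E → ℝ} (hf : Differentiable ℝ f) (hg : Differentiable ℝ g) (v : E) (y : E) :
    pd v (fun z => f z * g z) y = pd v f y * g y + f y * pd v g y := by
  unfold pd
  rw [fderiv_fun_mul (hf y) (hg y)]
  simp only [ContinuousLinearMap.add_apply, ContinuousLinearMap.smul_apply, smul_eq_mul]
  ring

theorem pd_sub {f g : E → ℝ} (hf : Differentiable ℝ f) (hg : Differentiable ℝ g) (v : E) (y : E) :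
    pd v (fun z => f z - g z) y = pd v f y - pd v g y := by
  unfold pd
  rw [fderiv_fun_sub (hf y) (hg y)]
  simp

theorem pd_comm {f : E → ℝ} (hf : ContDiff ℝ 2 f) (v w : E) (y : E) :
    pd v (pd w f) y = pd w (pd v f) y := by
  have hs : IsSymmSndFDerivAt ℝ f y := by
    apply ContDiffAt.isSymmSndFDerivAt (n := 2) hf.contDiffAt
    simp
  have h1 : Differentiable ℝ (fderiv ℝ f) := (hf.fderiv_right (m := 1) (by norm_num)).differentiable
    (by norm_num)
  have key : ∀ a b : E, pd a (pd b f) y = fderiv ℝ (fderiv ℝ f) y a b := by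
    intro a b
    unfold pd
    rw [fderiv_clm_apply (h1 y) (differentiableAt_const b)]
    simp
  rw [key, key]
  exact hs.eq v w

/-- integration by parts against `exp (-φ)`: one factor Lipschitz -/
theorem ibp {φ h W : E → ℝ} (hφ : ContDiff ℝ 1 φ) (hh : CC 1 h) {K : NNReal}
    (hW : LipschitzWith K W) (v : E) :
    ∫ y, W y * ds φ v h y * Real.exp (-φ y) ∂μ = ∫ y, wd v W y * h y * Real.exp (-φ y) ∂μ := by
  set g : E → ℝ := fun y => h y * Real.exp (-φ y) with hg
  have hgC : ContDiff ℝ 1 g := hh.1.mul (Real.contDiff_exp.comp hφ.neg)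
  have hgc : HasCompactSupport g := hh.2.mul_right
  obtain ⟨D, hD⟩ := hgC.lipschitzWith_of_hasCompactSupport hgc one_ne_zero
  have key := LipschitzWith.integral_lineDeriv_mul_eq (μ := μ) hW hD hgc v
  have h1 : ∀ y, lineDeriv ℝ g y (-v) = ds φ v h y * Real.exp (-φ y) := by
    intro y
    have hd : DifferentiableAt ℝ g y := hgC.differentiable (by norm_num) y
    rw [hd.lineDeriv_eq_fderiv]
    have hdh : HasFDerivAt h (fderiv ℝ h y) y :=
      (hh.1.differentiable (by norm_num) y).hasFDerivAt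
    have hdφ : HasFDerivAt φ (fderiv ℝ φ y) y := (hφ.differentiable (by norm_num) y).hasFDerivAt
    have h2 : HasFDerivAt g (h y • (Real.exp (-φ y) • (-fderiv ℝ φ y)) +
        Real.exp (-φ y) • fderiv ℝ h y) y := hdh.mul (hdφ.neg.exp)
    rw [h2.fderiv]
    simp only [ds, pd, map_neg, ContinuousLinearMap.add_apply, ContinuousLinearMap.smul_apply,
      ContinuousLinearMap.neg_apply, smul_eq_mul]
    ring
  simp only [h1] at key
  calc ∫ y, W y * ds φ v h y * Real.exp (-φ y) ∂μ
      = ∫ y, ds φ v h y * Real.exp (-φ y) * W y ∂μ := by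
        congr 1; ext y; ring
    _ = ∫ y, lineDeriv ℝ W y v * g y ∂μ := key.symm
    _ = ∫ y, wd v W y * h y * Real.exp (-φ y) ∂μ := by
        congr 1; ext y; simp only [wd, hg]; ring

end P227MFlat
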